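import Vale.Agent.P193.Main

/-!
P193: every finitely generated group with decidable word problem embeds in a finitely presented simple group.
-/

namespace Vale.Agent.Results.P193.BooneHigman

theorem result (G : Type) [Group G] (n : ℕ) (f : FreeGroup (Fin n) →* G) (hf : Function.Surjective f)
    (hwp : ComputablePred fun w : List (Fin n × Bool) => f (FreeGroup.mk w) = 1) :
    ∃ (Γ : Type) (_ : Group Γ), IsSimpleGroup Γ ∧ Group.IsFinitelyPresented Γ ∧
      ∃ i : G →* Γ, Function.Injective i :=
  Vale.P193.simpleEnvelope_of_decidableWP f hf hwp

end Vale.Agent.Results.P193.BooneHigman
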